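import Mathlib

/-!
# P249, helper53's lower bound (report 1854): the upper estimate (X1)

For bit vectors `a b : Fin K → Bool` at Hamming distance `t`, and every real `p > 0`,
`∑_ε |∑_i (sg (a i) - sg (b i)) * sg (ε i)|^p ≤ 2 * (p/e)^(p/2) * 2^p * 2^K * t^(p/2)`.
-/

namespace Vale.Agent.Lib.P249.H69

open Finset

/-- sign of a bit: `false ↦ 1`, `true ↦ -1`. -/
def sg (b : Bool) : ℝ := if b then -1 else 1

lemma sg_sq (b : Bool) : sg b ^ 2 = 1 := by
  cases b <;> simp [sg]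

/-- the Rademacher sum `z(ε) = ∑_i c_i * sg (ε i)`. -/
def rad {K : ℕ} (c : Fin K → ℝ) (ε : Fin K → Bool) : ℝ := ∑ i, c i * sg (ε i)

/-- moment generating function of a Rademacher sum over the whole cube. -/
lemma sum_exp_rad {K : ℕ} (c : Fin K → ℝ) (L : ℝ) :
    ∑ ε : Fin K → Bool, Real.exp (L * rad c ε)
      = ∏ i, (Real.exp (L * c i) + Real.exp (-(L * c i))) := by
  have h1 : ∀ ε : Fin K → Bool,
      Real.exp (L * rad c ε) = ∏ i, Real.exp (L * c i * sg (ε i)) := by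
    intro ε
    rw [← Real.exp_sum]
    congr 1
    unfold rad
    rw [Finset.mul_sum]
    refine Finset.sum_congr rfl fun i _ => by ring
  simp_rw [h1]
  have h2 := Finset.prod_univ_sum (fun _ : Fin K => (Finset.univ : Finset Bool))
    (fun i (j : Bool) => Real.exp (L * c i * sg j))
  rw [Fintype.piFinset_univ] at h2
  rw [← h2]
  refine Finset.prod_congr rfl fun i _ => ?_
  rw [Fintype.sum_bool]
  simp [sg, add_comm]

lemma sum_exp_rad_le {K : ℕ} (c : Fin K → ℝ) (L : ℝ) :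
    ∑ ε : Fin K → Bool, Real.exp (L * rad c ε)
      ≤ 2 ^ K * Real.exp (L ^ 2 / 2 * ∑ i, c i ^ 2) := by
  rw [sum_exp_rad]
  have h : ∀ i ∈ (Finset.univ : Finset (Fin K)),
      Real.exp (L * c i) + Real.exp (-(L * c i)) ≤ 2 * Real.exp (L ^ 2 / 2 * c i ^ 2) := by
    intro i _
    have h1 := Real.cosh_le_exp_half_sq (L * c i)
    rw [Real.cosh_eq] at h1
    have : (L * c i) ^ 2 / 2 = L ^ 2 / 2 * c i ^ 2 := by ring
    rw [this] at h1
    linarith
  calc ∏ i, (Real.exp (L * c i) + Real.exp (-(L * c i)))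
      ≤ ∏ i : Fin K, (2 * Real.exp (L ^ 2 / 2 * c i ^ 2)) :=
        Finset.prod_le_prod (fun i _ => by positivity) h
    _ = 2 ^ K * Real.exp (L ^ 2 / 2 * ∑ i, c i ^ 2) := by
        rw [Finset.prod_mul_distrib, Finset.prod_const, Finset.card_univ, Fintype.card_fin,
          ← Real.exp_sum, Finset.mul_sum]

/-- `|r|^q ≤ (q/(e L))^q * (exp (L r) + exp (-(L r)))`. -/
lemma abs_rpow_le_exp (r q L : ℝ) (hq : 0 < q) (hL : 0 < L) :
    |r| ^ q ≤ (q / (Real.exp 1 * L)) ^ q * (Real.exp (L * r) + Real.exp (-(L * r))) := by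
  set u : ℝ := L * |r| / q with hu
  have hu0 : 0 ≤ u := by positivity
  have h1 : u ≤ Real.exp (u - 1) := by
    have := Real.add_one_le_exp (u - 1)
    linarith
  have h2 : u ^ q ≤ Real.exp (u - 1) ^ q := Real.rpow_le_rpow hu0 h1 hq.le
  rw [← Real.exp_mul] at h2
  have h3 : |r| = (q / L) * u := by
    rw [hu]; field_simp
  have h4 : |r| ^ q = (q / L) ^ q * u ^ q := by
    rw [h3, Real.mul_rpow (by positivity) hu0]
  have h5 : (q / (Real.exp 1 * L)) ^ q = (q / L) ^ q * Real.exp (-q) := by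
    have : q / (Real.exp 1 * L) = (q / L) * Real.exp (-1) := by
      rw [Real.exp_neg]; field_simp
    rw [this, Real.mul_rpow (by positivity) (by positivity), ← Real.exp_mul]
    congr 2; ring
  have h6 : Real.exp (L * |r|) ≤ Real.exp (L * r) + Real.exp (-(L * r)) := by
    rcases abs_cases r with ⟨h, _⟩ | ⟨h, _⟩
    · rw [h]; linarith [Real.exp_pos (-(L * r))]
    · rw [h]; have : L * -r = -(L * r) := by ring
      rw [this]; linarith [Real.exp_pos (L * r)]
  have h7 : (u - 1) * q = L * |r| - q := by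
    rw [hu]; field_simp
  rw [h7] at h2
  have hpos : 0 ≤ (q / L) ^ q := by positivity
  calc |r| ^ q = (q / L) ^ q * u ^ q := h4
    _ ≤ (q / L) ^ q * Real.exp (L * |r| - q) := mul_le_mul_of_nonneg_left h2 hpos
    _ = (q / L) ^ q * Real.exp (-q) * Real.exp (L * |r|) := by
        rw [mul_assoc, ← Real.exp_add]; congr 2; ring
    _ ≤ (q / L) ^ q * Real.exp (-q) * (Real.exp (L * r) + Real.exp (-(L * r))) :=
        mul_le_mul_of_nonneg_left h6 (by positivity)
    _ = (q / (Real.exp 1 * L)) ^ q * (Real.exp (L * r) + Real.exp (-(L * r))) := by rw [h5]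

/-- Khintchine-type upper bound with an explicit constant, for every `L > 0`. -/
lemma sum_abs_rad_rpow_le {K : ℕ} (c : Fin K → ℝ) (p L : ℝ) (hp : 0 < p) (hL : 0 < L) :
    ∑ ε : Fin K → Bool, |rad c ε| ^ p
      ≤ (p / (Real.exp 1 * L)) ^ p * (2 * (2 ^ K * Real.exp (L ^ 2 / 2 * ∑ i, c i ^ 2))) := by
  have h1 : ∀ ε : Fin K → Bool, |rad c ε| ^ p
      ≤ (p / (Real.exp 1 * L)) ^ p * (Real.exp (L * rad c ε) + Real.exp ((-L) * rad c ε)) := by
    intro ε
    have := abs_rpow_le_exp (rad c ε) p L hp hL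
    simpa [neg_mul] using this
  have hpos : 0 ≤ (p / (Real.exp 1 * L)) ^ p := by positivity
  calc ∑ ε : Fin K → Bool, |rad c ε| ^ p
      ≤ ∑ ε : Fin K → Bool, (p / (Real.exp 1 * L)) ^ p *
          (Real.exp (L * rad c ε) + Real.exp ((-L) * rad c ε)) :=
        Finset.sum_le_sum fun ε _ => h1 ε
    _ = (p / (Real.exp 1 * L)) ^ p * (∑ ε : Fin K → Bool, Real.exp (L * rad c ε)
          + ∑ ε : Fin K → Bool, Real.exp ((-L) * rad c ε)) := by
        rw [← Finset.mul_sum, Finset.sum_add_distrib]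
    _ ≤ (p / (Real.exp 1 * L)) ^ p * (2 * (2 ^ K * Real.exp (L ^ 2 / 2 * ∑ i, c i ^ 2))) := by
        refine mul_le_mul_of_nonneg_left ?_ hpos
        have ha := sum_exp_rad_le c L
        have hb := sum_exp_rad_le c (-L)
        have : (-L) ^ 2 = L ^ 2 := by ring
        rw [this] at hb
        linarith

/-- the coefficient `sg (a i) - sg (b i)` squares to `4` or `0`. -/
lemma sg_sub_sq (x y : Bool) : (sg x - sg y) ^ 2 = if x ≠ y then 4 else 0 := by
  cases x <;> cases y <;> norm_num [sg]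

lemma sum_sg_sub_sq {K : ℕ} (a b : Fin K → Bool) :
    ∑ i, (sg (a i) - sg (b i)) ^ 2 = 4 * ((univ.filter fun i => a i ≠ b i).card : ℝ) := by
  simp_rw [sg_sub_sq]
  rw [Finset.sum_ite, Finset.sum_const, Finset.sum_const_zero, add_zero, nsmul_eq_mul, mul_comm]

/-- (X1) of report 1854: for bit vectors `a`, `b` at Hamming distance `t` and real `p > 0`,
`∑_ε |x_a(ε) - x_b(ε)|^p ≤ 2 (p/e)^(p/2) 2^p 2^K t^(p/2)`. -/
theorem x1_upper (K : ℕ) (a b : Fin K → Bool) (p : ℝ) (hp : 0 < p) :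
    ∑ ε : Fin K → Bool, |∑ i, (sg (a i) - sg (b i)) * sg (ε i)| ^ p
      ≤ 2 * (p / Real.exp 1) ^ (p / 2) * 2 ^ p * 2 ^ K *
        ((univ.filter fun i => a i ≠ b i).card : ℝ) ^ (p / 2) := by
  set t : ℕ := (univ.filter fun i => a i ≠ b i).card with ht
  set c : Fin K → ℝ := fun i => sg (a i) - sg (b i) with hc
  have hsum : ∑ i, c i ^ 2 = 4 * (t : ℝ) := sum_sg_sub_sq a b
  have hrad : ∀ ε : Fin K → Bool, (∑ i, (sg (a i) - sg (b i)) * sg (ε i)) = rad c ε := fun ε => rfl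
  simp_rw [hrad]
  have he : 0 < Real.exp 1 := Real.exp_pos 1
  rcases Nat.eq_zero_or_pos t with h0 | hpos
  · -- all coefficients vanish
    have hc0 : ∀ i, c i = 0 := by
      intro i
      have h1 : ∑ i, c i ^ 2 = 0 := by rw [hsum, h0]; simp
      have h2 := (Finset.sum_eq_zero_iff_of_nonneg (fun i _ => sq_nonneg (c i))).1 h1 i
        (Finset.mem_univ i)
      exact pow_eq_zero_iff (two_ne_zero) |>.1 h2
    have hr : ∀ ε : Fin K → Bool, rad c ε = 0 := by
      intro ε; unfold rad; simp [hc0]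
    simp_rw [hr, abs_zero, Real.zero_rpow hp.ne']
    rw [Finset.sum_const_zero]
    positivity
  · have htR : (0 : ℝ) < t := by exact_mod_cast hpos
    set L : ℝ := Real.sqrt (p / (4 * t)) with hLdef
    have hLpos : 0 < L := Real.sqrt_pos.2 (by positivity)
    have hLsq : L ^ 2 = p / (4 * t) := Real.sq_sqrt (by positivity)
    have key := sum_abs_rad_rpow_le c p L hp hLpos
    rw [hsum, hLsq] at key
    have hexp : p / (4 * (t : ℝ)) / 2 * (4 * t) = p / 2 := by field_simp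
    rw [hexp] at key
    refine key.trans (le_of_eq ?_)
    -- constants
    have hx : 0 < p / (Real.exp 1 * L) := by positivity
    have h1 : (p / (Real.exp 1 * L)) ^ p = ((p / (Real.exp 1 * L)) ^ 2) ^ (p / 2) := by
      rw [← Real.rpow_natCast, ← Real.rpow_mul hx.le]
      congr 1; push_cast; ring
    have h2 : (p / (Real.exp 1 * L)) ^ 2 = 4 * p * t / Real.exp 1 ^ 2 := by
      rw [div_pow, mul_pow, hLsq]; field_simp
    have h3 : Real.exp (p / 2) = Real.exp 1 ^ (p / 2) := by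
      rw [Real.exp_one_rpow]
    have h4 : (2 : ℝ) ^ p = (4 : ℝ) ^ (p / 2) := by
      have : (4 : ℝ) = 2 ^ (2 : ℝ) := by norm_num
      rw [this, ← Real.rpow_mul (by norm_num)]
      congr 1; ring
    rw [h1, h2, h3, h4]
    have e1 : (4 * p * (t : ℝ) / Real.exp 1 ^ 2) ^ (p / 2) * Real.exp 1 ^ (p / 2)
        = (4 * p * t / Real.exp 1) ^ (p / 2) := by
      rw [← Real.mul_rpow (by positivity) (by positivity)]
      congr 1; field_simp
    have e2 : (p / Real.exp 1) ^ (p / 2) * (4 : ℝ) ^ (p / 2) * (t : ℝ) ^ (p / 2)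
        = (4 * p * t / Real.exp 1) ^ (p / 2) := by
      rw [← Real.mul_rpow (by positivity) (by positivity),
        ← Real.mul_rpow (by positivity) (by positivity)]
      congr 1; ring
    calc (4 * p * (t : ℝ) / Real.exp 1 ^ 2) ^ (p / 2) *
          (2 * (2 ^ K * Real.exp 1 ^ (p / 2)))
        = 2 * 2 ^ K * ((4 * p * (t : ℝ) / Real.exp 1 ^ 2) ^ (p / 2) * Real.exp 1 ^ (p / 2)) := by
          ring
      _ = 2 * 2 ^ K * ((p / Real.exp 1) ^ (p / 2) * (4 : ℝ) ^ (p / 2) * (t : ℝ) ^ (p / 2)) := by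
          rw [e1, e2]
      _ = 2 * (p / Real.exp 1) ^ (p / 2) * (4 : ℝ) ^ (p / 2) * 2 ^ K * (t : ℝ) ^ (p / 2) := by
          ring

end Vale.Agent.Lib.P249.H69
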