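import Vale.Agent.Lib.P249.helper69.X1

/-!
# P249, helper53's lower bound (report 1854): the average lower estimate (X2) and injectivity

`∑_{a,b,ε} |x_a(ε) - x_b(ε)|^p ≥ 8^K (2K)^(p/2)` for `p ≥ 2`, where
`x_a(ε) = ∑_i sg (a i) * sg (ε i)`, and `a ↦ x_a` is injective.
-/

namespace Vale.Agent.Lib.P249.H69

open Finset

/-- flipping the `i`-th bit, as a permutation of the cube. -/
def flipBit {K : ℕ} (i : Fin K) : Equiv.Perm (Fin K → Bool) :=
  Function.Involutive.toPerm (fun ε => Function.update ε i (!ε i)) (by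
    intro ε
    funext j
    by_cases h : j = i
    · subst h; simp
    · simp [Function.update_of_ne h])

lemma flipBit_apply_same {K : ℕ} (i : Fin K) (ε : Fin K → Bool) : flipBit i ε i = !ε i := by
  show Function.update ε i (!ε i) i = !ε i
  simp

lemma flipBit_apply_ne {K : ℕ} {i j : Fin K} (h : j ≠ i) (ε : Fin K → Bool) :
    flipBit i ε j = ε j := by
  show Function.update ε i (!ε i) j = ε j
  simp [Function.update_of_ne h]

lemma sg_not (x : Bool) : sg (!x) = -sg x := by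
  cases x <;> simp [sg]

lemma sg_mul_self (x : Bool) : sg x * sg x = 1 := by
  cases x <;> simp [sg]

/-- a sum over the cube that changes sign under a bit flip vanishes. -/
lemma sum_eq_zero_of_flip {K : ℕ} (i : Fin K) (F : (Fin K → Bool) → ℝ)
    (hF : ∀ ε, F (flipBit i ε) = -F ε) : ∑ ε, F ε = 0 := by
  have h := Equiv.sum_comp (flipBit i) F
  simp_rw [hF] at h
  rw [Finset.sum_neg_distrib] at h
  linarith

lemma sum_sg {K : ℕ} (i : Fin K) : ∑ ε : Fin K → Bool, sg (ε i) = 0 :=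
  sum_eq_zero_of_flip i _ fun ε => by rw [flipBit_apply_same, sg_not]

lemma sum_sg_mul_sg {K : ℕ} (i j : Fin K) :
    ∑ ε : Fin K → Bool, sg (ε i) * sg (ε j) = if i = j then (2 : ℝ) ^ K else 0 := by
  split_ifs with h
  · subst h
    simp [sg_mul_self]
  · refine sum_eq_zero_of_flip i _ fun ε => ?_
    rw [flipBit_apply_same, flipBit_apply_ne (Ne.symm h), sg_not]
    ring

/-- second moment of a Rademacher sum over the cube. -/
lemma sum_rad_sq {K : ℕ} (c : Fin K → ℝ) :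
    ∑ ε : Fin K → Bool, rad c ε ^ 2 = 2 ^ K * ∑ i, c i ^ 2 := by
  have h1 : ∀ ε : Fin K → Bool,
      rad c ε ^ 2 = ∑ i, ∑ j, c i * c j * (sg (ε i) * sg (ε j)) := by
    intro ε
    unfold rad
    rw [sq, Finset.sum_mul_sum]
    refine Finset.sum_congr rfl fun i _ => Finset.sum_congr rfl fun j _ => by ring
  simp_rw [h1]
  rw [Finset.sum_comm]
  simp_rw [Finset.sum_comm (s := (Finset.univ : Finset (Fin K → Bool))), ← Finset.mul_sum,
    sum_sg_mul_sg]
  rw [Finset.mul_sum]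
  refine Finset.sum_congr rfl fun i _ => ?_
  simp [sq]
  ring

/-- `∑_{a,b} (sg (a i) - sg (b i))^2 = 2 * 4^K`. -/
lemma sum_sum_sg_sub_sq {K : ℕ} (i : Fin K) :
    ∑ a : Fin K → Bool, ∑ b : Fin K → Bool, (sg (a i) - sg (b i)) ^ 2 = 2 * (4 : ℝ) ^ K := by
  have h1 : ∀ a b : Fin K → Bool,
      (sg (a i) - sg (b i)) ^ 2 = 2 - 2 * (sg (a i) * sg (b i)) := by
    intro a b
    have ha := sg_mul_self (a i)
    have hb := sg_mul_self (b i)
    nlinarith
  have h2 : ∀ a : Fin K → Bool,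
      ∑ b : Fin K → Bool, (sg (a i) - sg (b i)) ^ 2 = 2 * 2 ^ K := by
    intro a
    simp_rw [h1]
    rw [Finset.sum_sub_distrib, ← Finset.mul_sum, ← Finset.mul_sum, sum_sg]
    simp
    ring
  simp_rw [h2]
  have : (4 : ℝ) ^ K = 2 ^ K * 2 ^ K := by rw [← mul_pow]; norm_num
  rw [this]
  simp
  ring

/-- the total second moment: `∑_{a,b,ε} (x_a(ε) - x_b(ε))^2 = 2K * 8^K`. -/
lemma sum_sq_total (K : ℕ) :
    ∑ a : Fin K → Bool, ∑ b : Fin K → Bool, ∑ ε : Fin K → Bool,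
        (∑ i, (sg (a i) - sg (b i)) * sg (ε i)) ^ 2 = 2 * K * (8 : ℝ) ^ K := by
  have h1 : ∀ a b : Fin K → Bool, ∑ ε : Fin K → Bool,
      (∑ i, (sg (a i) - sg (b i)) * sg (ε i)) ^ 2
        = 2 ^ K * ∑ i, (sg (a i) - sg (b i)) ^ 2 :=
    fun a b => sum_rad_sq (fun i => sg (a i) - sg (b i))
  simp_rw [h1, ← Finset.mul_sum]
  have h2 : ∑ a : Fin K → Bool, ∑ b : Fin K → Bool, ∑ i, (sg (a i) - sg (b i)) ^ 2
      = ∑ i : Fin K, 2 * (4 : ℝ) ^ K := by
    calc ∑ a : Fin K → Bool, ∑ b : Fin K → Bool, ∑ i, (sg (a i) - sg (b i)) ^ 2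
        = ∑ a : Fin K → Bool, ∑ i, ∑ b : Fin K → Bool, (sg (a i) - sg (b i)) ^ 2 :=
          Finset.sum_congr rfl fun a _ => Finset.sum_comm
      _ = ∑ i, ∑ a : Fin K → Bool, ∑ b : Fin K → Bool, (sg (a i) - sg (b i)) ^ 2 :=
          Finset.sum_comm
      _ = ∑ i : Fin K, 2 * (4 : ℝ) ^ K := Finset.sum_congr rfl fun i _ => sum_sum_sg_sub_sq i
  rw [h2]
  have : (8 : ℝ) ^ K = 2 ^ K * 4 ^ K := by rw [← mul_pow]; norm_num
  rw [this]
  simp
  ring

/-- power mean inequality between the exponents `2` and `p ≥ 2` over a finite type. -/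
lemma card_mul_rpow_le_sum_abs_rpow {ι : Type*} [Fintype ι] [Nonempty ι] (z : ι → ℝ) (p : ℝ)
    (hp : 2 ≤ p) :
    (Fintype.card ι : ℝ) * ((∑ t, z t ^ 2) / Fintype.card ι) ^ (p / 2) ≤ ∑ t, |z t| ^ p := by
  have hN : (0 : ℝ) < Fintype.card ι := by exact_mod_cast Fintype.card_pos
  have h := Real.rpow_arith_mean_le_arith_mean_rpow (Finset.univ : Finset ι)
    (fun _ => 1 / (Fintype.card ι : ℝ)) (fun t => z t ^ 2) (fun _ _ => by positivity)
    (by simp) (fun t _ => sq_nonneg _) (p := p / 2) (by linarith)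
  have h1 : ∀ t, (z t ^ 2) ^ (p / 2) = |z t| ^ p := by
    intro t
    rw [← sq_abs, ← Real.rpow_natCast, ← Real.rpow_mul (abs_nonneg _)]
    congr 1; push_cast; ring
  simp_rw [h1, ← Finset.mul_sum] at h
  have h2 : 1 / (Fintype.card ι : ℝ) * ∑ t, z t ^ 2 = (∑ t, z t ^ 2) / Fintype.card ι := by
    field_simp
  rw [h2] at h
  calc (Fintype.card ι : ℝ) * ((∑ t, z t ^ 2) / Fintype.card ι) ^ (p / 2)
      ≤ (Fintype.card ι : ℝ) * (1 / (Fintype.card ι : ℝ) * ∑ t, |z t| ^ p) :=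
        mul_le_mul_of_nonneg_left h hN.le
    _ = ∑ t, |z t| ^ p := by field_simp

/-- (X2) of report 1854: `8^K (2K)^(p/2) ≤ ∑_{a,b,ε} |x_a(ε) - x_b(ε)|^p` for `p ≥ 2`. -/
theorem x2_lower (K : ℕ) (p : ℝ) (hp : 2 ≤ p) :
    (8 : ℝ) ^ K * (2 * (K : ℝ)) ^ (p / 2) ≤
      ∑ a : Fin K → Bool, ∑ b : Fin K → Bool, ∑ ε : Fin K → Bool,
        |∑ i, (sg (a i) - sg (b i)) * sg (ε i)| ^ p := by
  have hcard : (Fintype.card ((Fin K → Bool) × (Fin K → Bool) × (Fin K → Bool)) : ℝ)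
      = (8 : ℝ) ^ K := by
    simp only [Fintype.card_prod, Fintype.card_fun, Fintype.card_bool, Fintype.card_fin]
    push_cast
    rw [← mul_pow, ← mul_pow]; norm_num
  have h := card_mul_rpow_le_sum_abs_rpow
    (fun t : (Fin K → Bool) × (Fin K → Bool) × (Fin K → Bool) =>
      ∑ i, (sg (t.1 i) - sg (t.2.1 i)) * sg (t.2.2 i)) p hp
  rw [hcard] at h
  simp only [Fintype.sum_prod_type] at h
  rw [sum_sq_total] at h
  have h8 : (0 : ℝ) < 8 ^ K := by positivity
  have : 2 * (K : ℝ) * 8 ^ K / 8 ^ K = 2 * (K : ℝ) := by field_simp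
  rw [this] at h
  exact h

/-- the points `x_a(ε) = ∑_i sg (a i) * sg (ε i)` are distinct. -/
theorem xpt_injective (K : ℕ) :
    Function.Injective (fun (a : Fin K → Bool) (ε : Fin K → Bool) => ∑ i, sg (a i) * sg (ε i)) := by
  intro a b hab
  have h := congrFun hab a
  simp only at h
  have h1 : ∑ i, (sg (a i) * sg (a i) - sg (b i) * sg (a i)) = 0 := by
    rw [Finset.sum_sub_distrib, h, sub_self]
  have h2 : ∀ i ∈ (Finset.univ : Finset (Fin K)),
      0 ≤ sg (a i) * sg (a i) - sg (b i) * sg (a i) := by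
    intro i _
    cases a i <;> cases b i <;> norm_num [sg]
  have h3 := (Finset.sum_eq_zero_iff_of_nonneg h2).1 h1
  funext i
  have h4 := h3 i (Finset.mem_univ i)
  revert h4
  cases a i <;> cases b i <;> norm_num [sg]

end Vale.Agent.Lib.P249.H69
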