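import Vale.Agent.Lib.P249.helper53.Cube

/-!
# P249, helper53's lower bound (report 1854), Lemma 2 (job 217, J2): `conc_cube`

Concentration of functions on the cube `Fin K → Bool` that are Lipschitz for the square root of
the Hamming distance, deduced from `pl_cube` (helper53).
-/

namespace Vale.Agent.Lib.P249.H69c

open Finset

/-- for `r ≥ 0`, `s > 0`, `L > 0`: `r^s ≤ (s/(e L))^s * exp (L r)`. -/
lemma rpow_le_exp (r s L : ℝ) (hr : 0 ≤ r) (hs : 0 < s) (hL : 0 < L) :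
    r ^ s ≤ (s / (Real.exp 1 * L)) ^ s * Real.exp (L * r) := by
  set u : ℝ := L * r / s with hu
  have hu0 : 0 ≤ u := by positivity
  have h1 : u ≤ Real.exp (u - 1) := by
    have := Real.add_one_le_exp (u - 1)
    linarith
  have h2 : u ^ s ≤ Real.exp (u - 1) ^ s := Real.rpow_le_rpow hu0 h1 hs.le
  rw [← Real.exp_mul] at h2
  have h3 : (s / L) * u = r := by
    rw [hu]; field_simp
  have h4 : r ^ s = (s / L) ^ s * u ^ s := by
    rw [← Real.mul_rpow (by positivity) hu0, h3]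
  have h5 : (s / (Real.exp 1 * L)) ^ s = (s / L) ^ s * Real.exp (-s) := by
    have : s / (Real.exp 1 * L) = (s / L) * Real.exp (-1) := by
      rw [Real.exp_neg]; field_simp
    rw [this, Real.mul_rpow (by positivity) (by positivity), ← Real.exp_mul]
    congr 2; ring
  have h7 : (u - 1) * s = L * r - s := by
    rw [hu]; field_simp
  rw [h7] at h2
  have hpos : 0 ≤ (s / L) ^ s := by positivity
  calc r ^ s = (s / L) ^ s * u ^ s := h4
    _ ≤ (s / L) ^ s * Real.exp (L * r - s) := mul_le_mul_of_nonneg_left h2 hpos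
    _ = (s / L) ^ s * Real.exp (-s) * Real.exp (L * r) := by
        rw [mul_assoc, ← Real.exp_add]; congr 2; ring
    _ = (s / (Real.exp 1 * L)) ^ s * Real.exp (L * r) := by rw [h5]

/-- `(x + y)^q ≤ 2^(q-1) (x^q + y^q)` for nonnegative reals and `q ≥ 1`. -/
lemma add_rpow_le (x y q : ℝ) (hx : 0 ≤ x) (hy : 0 ≤ y) (hq : 1 ≤ q) :
    (x + y) ^ q ≤ 2 ^ (q - 1) * (x ^ q + y ^ q) := by
  have h := NNReal.rpow_add_le_mul_rpow_add_rpow ⟨x, hx⟩ ⟨y, hy⟩ hq
  have h' := NNReal.coe_le_coe.2 h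
  push_cast at h'
  exact h'

/-- a median of a real function on a finite nonempty type. -/
lemma exists_median {α : Type*} [Fintype α] [Nonempty α] (h : α → ℝ) :
    ∃ M : ℝ, Fintype.card α ≤ 2 * (univ.filter fun a => h a ≤ M).card ∧
      Fintype.card α ≤ 2 * (univ.filter fun a => M ≤ h a).card := by
  classical
  set S : Finset ℝ := (univ.image h).filter
    (fun v => Fintype.card α ≤ 2 * (univ.filter fun a => h a ≤ v).card) with hS
  have hne : S.Nonempty := by
    obtain ⟨a0, -, ha0⟩ := Finset.exists_max_image (univ : Finset α) h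
      ⟨Classical.arbitrary α, mem_univ _⟩
    refine ⟨h a0, ?_⟩
    rw [hS, Finset.mem_filter]
    refine ⟨Finset.mem_image_of_mem h (mem_univ a0), ?_⟩
    have : (univ.filter fun a => h a ≤ h a0) = univ := by
      rw [Finset.filter_eq_self]
      intro a _; exact ha0 a (mem_univ a)
    rw [this, Finset.card_univ]; omega
  set M := S.min' hne with hMdef
  have hMS : M ∈ S := Finset.min'_mem S hne
  have hM1 : Fintype.card α ≤ 2 * (univ.filter fun a => h a ≤ M).card :=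
    (Finset.mem_filter.1 hMS).2
  refine ⟨M, hM1, ?_⟩
  by_contra hcon
  rw [not_le] at hcon
  have hsplit : (univ.filter fun a => M ≤ h a).card + (univ.filter fun a => ¬ (M ≤ h a)).card
      = Fintype.card α := by
    rw [Finset.card_filter_add_card_filter_not, Finset.card_univ]
  have hne2 : (univ.filter fun a => ¬ (M ≤ h a)).Nonempty := by
    rw [← Finset.card_pos]; omega
  obtain ⟨a1, ha1, hmax⟩ := Finset.exists_max_image _ h hne2
  have ha1' : h a1 < M := not_le.1 (Finset.mem_filter.1 ha1).2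
  have hsub : (univ.filter fun a => ¬ (M ≤ h a)) ⊆ (univ.filter fun a => h a ≤ h a1) := by
    intro a ha
    rw [Finset.mem_filter]
    exact ⟨mem_univ _, hmax a ha⟩
  have hcard := Finset.card_le_card hsub
  have hv : h a1 ∈ S := by
    rw [hS, Finset.mem_filter]
    exact ⟨Finset.mem_image_of_mem h (mem_univ a1), by omega⟩
  have := Finset.min'_le S (h a1) hv
  linarith

/-- one-sided exponential bound from `pl_cube`. -/
lemma one_sided (K : ℕ) (Lam : ℝ) (hLam : 0 < Lam) (h : (Fin K → Bool) → ℝ)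
    (hlip : ∀ a b, |h a - h b| ≤ Lam * Real.sqrt (hammingDist a b)) (M L : ℝ) (hL : 0 < L)
    (hM : (2 : ℝ) ^ K ≤ 2 * ((univ.filter fun a => h a ≤ M).card : ℝ)) :
    ∑ a, Real.exp (L * (max (h a - M) 0) ^ 2 / Lam ^ 2)
      ≤ 2 * 2 ^ K * Real.exp (L ^ 2 * K / 4) := by
  classical
  set T : ℝ := ∑ a, L * (max (h a - M) 0) ^ 2 / Lam ^ 2 with hT
  set f : (Fin K → Bool) → ℝ := fun b => if h b ≤ M then 0 else T with hf
  set g : (Fin K → Bool) → ℝ := fun a => L * (max (h a - M) 0) ^ 2 / Lam ^ 2 with hg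
  have hg0 : ∀ a, 0 ≤ g a := fun a => by positivity
  have hgT : ∀ a, g a ≤ T := fun a =>
    Finset.single_le_sum (fun i _ => hg0 i) (Finset.mem_univ a)
  have hcond : ∀ a b, g a ≤ f b + L * (hammingDist a b : ℝ) := by
    intro a b
    have hham : (0 : ℝ) ≤ (hammingDist a b : ℝ) := Nat.cast_nonneg _
    by_cases hb : h b ≤ M
    · have hfb : f b = 0 := by simp [hf, hb]
      rw [hfb, zero_add]
      have h1 : max (h a - M) 0 ≤ Lam * Real.sqrt (hammingDist a b) := by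
        refine max_le ?_ (by positivity)
        calc h a - M ≤ h a - h b := by linarith
          _ ≤ |h a - h b| := le_abs_self _
          _ ≤ _ := hlip a b
      have h2 : (max (h a - M) 0) ^ 2 ≤ (Lam * Real.sqrt (hammingDist a b)) ^ 2 :=
        pow_le_pow_left₀ (le_max_right _ _) h1 2
      rw [mul_pow, Real.sq_sqrt hham] at h2
      show L * (max (h a - M) 0) ^ 2 / Lam ^ 2 ≤ L * (hammingDist a b : ℝ)
      rw [div_le_iff₀ (by positivity)]
      nlinarith
    · have hfb : f b = T := by simp [hf, hb]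
      rw [hfb]
      have h1 : 0 ≤ L * (hammingDist a b : ℝ) := by positivity
      linarith [hgT a]
  have hpl := Vale.Agent.Lib.P249.H53.pl_cube K L hL.le f g hcond
  have hB : (2 : ℝ) ^ K / 2 ≤ ∑ b, Real.exp (-f b) := by
    have h1 : ∑ b ∈ univ.filter (fun b => h b ≤ M), Real.exp (-f b) ≤ ∑ b, Real.exp (-f b) :=
      Finset.sum_le_sum_of_subset_of_nonneg (Finset.filter_subset _ _)
        (fun _ _ _ => (Real.exp_pos _).le)
    have h2 : ∑ b ∈ univ.filter (fun b => h b ≤ M), Real.exp (-f b)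
        = ((univ.filter fun a => h a ≤ M).card : ℝ) := by
      rw [Finset.card_eq_sum_ones]; push_cast
      refine Finset.sum_congr rfl fun b hb => ?_
      have : h b ≤ M := (Finset.mem_filter.1 hb).2
      simp [hf, this]
    linarith
  have hA : 0 ≤ ∑ a, Real.exp (g a) := Finset.sum_nonneg fun _ _ => (Real.exp_pos _).le
  have h4 : (4 : ℝ) ^ K = 2 ^ K * 2 ^ K := by rw [← mul_pow]; norm_num
  have h2K : (0 : ℝ) < 2 ^ K := by positivity
  have h5 : (∑ a, Real.exp (g a)) * ((2 : ℝ) ^ K / 2) ≤ 4 ^ K * Real.exp (L ^ 2 * K / 4) :=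
    le_trans (mul_le_mul_of_nonneg_left hB hA) hpl
  rw [h4] at h5
  by_contra hcon
  rw [not_le] at hcon
  have h6 : (2 * 2 ^ K * Real.exp (L ^ 2 * K / 4)) * ((2 : ℝ) ^ K / 2)
      < (∑ a, Real.exp (g a)) * ((2 : ℝ) ^ K / 2) :=
    mul_lt_mul_of_pos_right hcon (by positivity)
  have e : (2 * 2 ^ K * Real.exp (L ^ 2 * K / 4)) * ((2 : ℝ) ^ K / 2)
      = 2 ^ K * 2 ^ K * Real.exp (L ^ 2 * K / 4) := by ring
  linarith

/-- two-sided exponential bound around a median. -/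
lemma two_sided (K : ℕ) (Lam : ℝ) (hLam : 0 < Lam) (h : (Fin K → Bool) → ℝ)
    (hlip : ∀ a b, |h a - h b| ≤ Lam * Real.sqrt (hammingDist a b)) (M L : ℝ) (hL : 0 < L)
    (hM1 : (2 : ℝ) ^ K ≤ 2 * ((univ.filter fun a => h a ≤ M).card : ℝ))
    (hM2 : (2 : ℝ) ^ K ≤ 2 * ((univ.filter fun a => M ≤ h a).card : ℝ)) :
    ∑ a, Real.exp (L * ((h a - M) ^ 2 / Lam ^ 2)) ≤ 4 * 2 ^ K * Real.exp (L ^ 2 * K / 4) := by
  have h1 := one_sided K Lam hLam h hlip M L hL hM1
  have hlip' : ∀ a b, |(-h a) - (-h b)| ≤ Lam * Real.sqrt (hammingDist a b) := by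
    intro a b
    have : (-h a) - (-h b) = -(h a - h b) := by ring
    rw [this, abs_neg]; exact hlip a b
  have hM2' : (2 : ℝ) ^ K ≤ 2 * ((univ.filter fun a => -h a ≤ -M).card : ℝ) := by
    have : (univ.filter fun a => -h a ≤ -M) = (univ.filter fun a => M ≤ h a) := by
      ext a; simp
    rw [this]; exact hM2
  have h2 := one_sided K Lam hLam (fun a => -h a) hlip' (-M) L hL hM2'
  have hpt : ∀ a, Real.exp (L * ((h a - M) ^ 2 / Lam ^ 2)) ≤
      Real.exp (L * (max (h a - M) 0) ^ 2 / Lam ^ 2)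
        + Real.exp (L * (max (-h a - -M) 0) ^ 2 / Lam ^ 2) := by
    intro a
    rcases le_total M (h a) with hc | hc
    · have e1 : max (h a - M) 0 = h a - M := max_eq_left (by linarith)
      rw [e1]
      have e2 : L * ((h a - M) ^ 2 / Lam ^ 2) = L * (h a - M) ^ 2 / Lam ^ 2 := by ring
      rw [e2]
      linarith [Real.exp_pos (L * (max (-h a - -M) 0) ^ 2 / Lam ^ 2)]
    · have e1 : max (-h a - -M) 0 = -h a - -M := max_eq_left (by linarith)
      rw [e1]
      have e2 : L * ((h a - M) ^ 2 / Lam ^ 2) = L * (-h a - -M) ^ 2 / Lam ^ 2 := by ring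
      rw [e2]
      linarith [Real.exp_pos (L * (max (h a - M) 0) ^ 2 / Lam ^ 2)]
  calc ∑ a, Real.exp (L * ((h a - M) ^ 2 / Lam ^ 2))
      ≤ ∑ a, (Real.exp (L * (max (h a - M) 0) ^ 2 / Lam ^ 2)
          + Real.exp (L * (max (-h a - -M) 0) ^ 2 / Lam ^ 2)) :=
        Finset.sum_le_sum fun a _ => hpt a
    _ = ∑ a, Real.exp (L * (max (h a - M) 0) ^ 2 / Lam ^ 2)
          + ∑ a, Real.exp (L * (max (-h a - -M) 0) ^ 2 / Lam ^ 2) := Finset.sum_add_distrib
    _ ≤ 4 * 2 ^ K * Real.exp (L ^ 2 * K / 4) := by linarith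

/-- the `q`-th moment around a median, sharp constant of report 1854. -/
lemma sum_abs_sub_rpow_le (K : ℕ) (hK : 1 ≤ K) (q : ℝ) (hq : 2 ≤ q) (Lam : ℝ) (hLam : 0 < Lam)
    (h : (Fin K → Bool) → ℝ)
    (hlip : ∀ a b, |h a - h b| ≤ Lam * Real.sqrt (hammingDist a b)) (M : ℝ)
    (hM1 : (2 : ℝ) ^ K ≤ 2 * ((univ.filter fun a => h a ≤ M).card : ℝ))
    (hM2 : (2 : ℝ) ^ K ≤ 2 * ((univ.filter fun a => M ≤ h a).card : ℝ)) :
    ∑ a, |h a - M| ^ q ≤ 4 * 2 ^ K * Lam ^ q * (q * K / (4 * Real.exp 1)) ^ (q / 4) := by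
  have hq0 : 0 < q := by linarith
  have hKR : (0 : ℝ) < K := by exact_mod_cast hK
  set L : ℝ := Real.sqrt (q / K) with hLdef
  have hLpos : 0 < L := Real.sqrt_pos.2 (by positivity)
  have hLsq : L ^ 2 = q / K := Real.sq_sqrt (by positivity)
  have h2s := two_sided K Lam hLam h hlip M L hLpos hM1 hM2
  have hexp : L ^ 2 * K / 4 = q / 4 := by rw [hLsq]; field_simp
  rw [hexp] at h2s
  have hLq : 0 < Lam ^ q := Real.rpow_pos_of_pos hLam q
  have hpt : ∀ a, |h a - M| ^ q ≤ Lam ^ q * ((q / 2 / (Real.exp 1 * L)) ^ (q / 2) *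
      Real.exp (L * ((h a - M) ^ 2 / Lam ^ 2))) := by
    intro a
    have hr : 0 ≤ (h a - M) ^ 2 / Lam ^ 2 := by positivity
    have h1 := rpow_le_exp ((h a - M) ^ 2 / Lam ^ 2) (q / 2) L hr (by linarith) hLpos
    have h2 : ((h a - M) ^ 2 / Lam ^ 2) ^ (q / 2) = |h a - M| ^ q / Lam ^ q := by
      rw [Real.div_rpow (sq_nonneg _) (sq_nonneg _)]
      congr 1
      · rw [← sq_abs, ← Real.rpow_natCast, ← Real.rpow_mul (abs_nonneg _)]
        congr 1; push_cast; ring
      · rw [← Real.rpow_natCast, ← Real.rpow_mul hLam.le]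
        congr 1; push_cast; ring
    rw [h2, div_le_iff₀ hLq] at h1
    linarith
  have hx : 0 < q / 2 / (Real.exp 1 * L) := by positivity
  have e1 : (q / 2 / (Real.exp 1 * L)) ^ (q / 2) = ((q / 2 / (Real.exp 1 * L)) ^ 2) ^ (q / 4) := by
    rw [← Real.rpow_natCast, ← Real.rpow_mul hx.le]
    congr 1; push_cast; ring
  have e2 : (q / 2 / (Real.exp 1 * L)) ^ 2 = q * K / (4 * Real.exp 1 ^ 2) := by
    rw [div_pow, div_pow, mul_pow, hLsq]; field_simp; ring
  have e3 : Real.exp (q / 4) = Real.exp 1 ^ (q / 4) := by rw [Real.exp_one_rpow]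
  have e4 : (q * K / (4 * Real.exp 1 ^ 2)) ^ (q / 4) * Real.exp 1 ^ (q / 4)
      = (q * K / (4 * Real.exp 1)) ^ (q / 4) := by
    rw [← Real.mul_rpow (by positivity) (by positivity)]
    congr 1; field_simp
  have hc0 : 0 ≤ (q / 2 / (Real.exp 1 * L)) ^ (q / 2) := by positivity
  calc ∑ a, |h a - M| ^ q
      ≤ ∑ a, Lam ^ q * ((q / 2 / (Real.exp 1 * L)) ^ (q / 2) *
          Real.exp (L * ((h a - M) ^ 2 / Lam ^ 2))) := Finset.sum_le_sum fun a _ => hpt a
    _ = Lam ^ q * ((q / 2 / (Real.exp 1 * L)) ^ (q / 2) *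
          ∑ a, Real.exp (L * ((h a - M) ^ 2 / Lam ^ 2))) := by
        rw [← Finset.mul_sum, ← Finset.mul_sum]
    _ ≤ Lam ^ q * ((q / 2 / (Real.exp 1 * L)) ^ (q / 2) * (4 * 2 ^ K * Real.exp (q / 4))) :=
        mul_le_mul_of_nonneg_left (mul_le_mul_of_nonneg_left h2s hc0) hLq.le
    _ = 4 * 2 ^ K * Lam ^ q * ((q * K / (4 * Real.exp 1 ^ 2)) ^ (q / 4) * Real.exp 1 ^ (q / 4)) := by
        rw [e1, e2, e3]; ring
    _ = 4 * 2 ^ K * Lam ^ q * (q * K / (4 * Real.exp 1)) ^ (q / 4) := by rw [e4]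

/-- Lemma 2 of report 1854 with its sharp constant `(q K / (4 e))^(q/4)`. -/
theorem conc_cube_e (K : ℕ) (hK : 1 ≤ K) (q : ℝ) (hq : 2 ≤ q) (Lam : ℝ) (hLam : 0 ≤ Lam)
    (h : (Fin K → Bool) → ℝ)
    (hlip : ∀ a b, |h a - h b| ≤ Lam * Real.sqrt (hammingDist a b)) :
    ∑ a, ∑ b, |h a - h b| ^ q
      ≤ 4 ^ K * 2 ^ (q + 2) * Lam ^ q * (q * K / (4 * Real.exp 1)) ^ (q / 4) := by
  have hq0 : 0 < q := by linarith
  have hKR : (0 : ℝ) < K := by exact_mod_cast hK
  have hrhs : (0 : ℝ) ≤ 4 ^ K * 2 ^ (q + 2) * Lam ^ q * (q * K / (4 * Real.exp 1)) ^ (q / 4) := by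
    have := Real.rpow_nonneg hLam q
    positivity
  rcases hLam.eq_or_lt with h0 | hpos
  · have hc : ∀ a b, |h a - h b| = 0 := by
      intro a b
      have := hlip a b
      rw [← h0, zero_mul] at this
      exact le_antisymm this (abs_nonneg _)
    simp_rw [hc, Real.zero_rpow hq0.ne']
    simpa using hrhs
  · obtain ⟨M, hM1, hM2⟩ := exists_median h
    have hcardQ : Fintype.card (Fin K → Bool) = 2 ^ K := by simp
    have hM1' : (2 : ℝ) ^ K ≤ 2 * ((univ.filter fun a => h a ≤ M).card : ℝ) := by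
      rw [hcardQ] at hM1; exact_mod_cast hM1
    have hM2' : (2 : ℝ) ^ K ≤ 2 * ((univ.filter fun a => M ≤ h a).card : ℝ) := by
      rw [hcardQ] at hM2; exact_mod_cast hM2
    have hmom := sum_abs_sub_rpow_le K hK q hq Lam hpos h hlip M hM1' hM2'
    have hpt : ∀ a b, |h a - h b| ^ q ≤ 2 ^ (q - 1) * (|h a - M| ^ q + |h b - M| ^ q) := by
      intro a b
      have h1 : |h a - h b| ≤ |h a - M| + |h b - M| := by
        have : h a - h b = (h a - M) - (h b - M) := by ring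
        rw [this]; exact abs_sub _ _
      calc |h a - h b| ^ q ≤ (|h a - M| + |h b - M|) ^ q :=
            Real.rpow_le_rpow (abs_nonneg _) h1 hq0.le
        _ ≤ _ := add_rpow_le _ _ q (abs_nonneg _) (abs_nonneg _) (by linarith)
    set S : ℝ := ∑ a, |h a - M| ^ q with hSdef
    have e1 : ∀ a, ∑ b, (|h a - M| ^ q + |h b - M| ^ q) = 2 ^ K * |h a - M| ^ q + S := by
      intro a
      rw [Finset.sum_add_distrib, Finset.sum_const, Finset.card_univ, hcardQ, nsmul_eq_mul]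
      push_cast; rfl
    have e2 : ∑ a, ∑ b, (|h a - M| ^ q + |h b - M| ^ q) = 2 * 2 ^ K * S := by
      simp_rw [e1]
      rw [Finset.sum_add_distrib, ← Finset.mul_sum, Finset.sum_const, Finset.card_univ, hcardQ,
        nsmul_eq_mul]
      push_cast; ring
    have h2q : (0 : ℝ) ≤ 2 ^ (q - 1) := by positivity
    have e8 : (2 : ℝ) ^ (q + 2) = 2 ^ (q - 1) * 8 := by
      have : q + 2 = (q - 1) + (3 : ℕ) := by push_cast; ring
      rw [this, Real.rpow_add_natCast (by norm_num : (2 : ℝ) ≠ 0)]; norm_num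
    have h4 : (4 : ℝ) ^ K = 2 ^ K * 2 ^ K := by rw [← mul_pow]; norm_num
    calc ∑ a, ∑ b, |h a - h b| ^ q
        ≤ ∑ a, ∑ b, 2 ^ (q - 1) * (|h a - M| ^ q + |h b - M| ^ q) :=
          Finset.sum_le_sum fun a _ => Finset.sum_le_sum fun b _ => hpt a b
      _ = 2 ^ (q - 1) * (2 * 2 ^ K * S) := by
          simp_rw [← Finset.mul_sum]; rw [e2]
      _ ≤ 2 ^ (q - 1) * (2 * 2 ^ K *
            (4 * 2 ^ K * Lam ^ q * (q * K / (4 * Real.exp 1)) ^ (q / 4))) := by
          refine mul_le_mul_of_nonneg_left ?_ h2q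
          exact mul_le_mul_of_nonneg_left hmom (by positivity)
      _ = 4 ^ K * 2 ^ (q + 2) * Lam ^ q * (q * K / (4 * Real.exp 1)) ^ (q / 4) := by
          rw [e8, h4]; ring

/-- job 217 (J2), exact job form (relaxed constant `(q K)^(q/4)`). -/
theorem conc_cube (K : ℕ) (hK : 1 ≤ K) (q : ℝ) (hq : 2 ≤ q) (Lam : ℝ) (hLam : 0 ≤ Lam)
    (h : (Fin K → Bool) → ℝ)
    (hlip : ∀ a b, |h a - h b| ≤ Lam * Real.sqrt (hammingDist a b)) :
    ∑ a, ∑ b, |h a - h b| ^ q ≤ 4 ^ K * 2 ^ (q + 2) * Lam ^ q * (q * K) ^ (q / 4) := by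
  have hq0 : 0 < q := by linarith
  have hKR : (0 : ℝ) < K := by exact_mod_cast hK
  refine le_trans (conc_cube_e K hK q hq Lam hLam h hlip) ?_
  have hrel : (q * K / (4 * Real.exp 1)) ^ (q / 4) ≤ (q * (K : ℝ)) ^ (q / 4) := by
    refine Real.rpow_le_rpow (by positivity) ?_ (by positivity)
    refine div_le_self (by positivity) ?_
    have := Real.add_one_le_exp (1 : ℝ); linarith
  have hpre : (0 : ℝ) ≤ 4 ^ K * 2 ^ (q + 2) * Lam ^ q := by
    have := Real.rpow_nonneg hLam q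
    positivity
  exact mul_le_mul_of_nonneg_left hrel hpre

end Vale.Agent.Lib.P249.H69c
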