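import Vale.Agent.Lib.P249.helper69.Exact
import Vale.Agent.Lib.P249.helper69.Conc

/-!
# P249, helper53's lower bound (report 1854): the assembly in terms of `q`-th powers

`cube_core`: if `Y : (Fin K → Bool) → Fin d → ℝ` has
`s^q X(a,b) ≤ ∑_j |Y a j - Y b j|^q ≤ D^q s^q X(a,b)` for all `a b`, where
`X(a,b) = ∑_ε |x_a(ε) - x_b(ε)|^q` is the `q`-th power of the `ℓ_q` distance of the cube points,
then `K^(q/4) ≤ C(q) * D^q * d`.
-/

namespace Vale.Agent.Lib.P249.H69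

open Finset

/-- the difference `x_a(ε) - x_b(ε)` of two cube points at the coordinate `ε`. -/
def xdiff {K : ℕ} (a b ε : Fin K → Bool) : ℝ :=
  ∑ i, ((if a i then (-1:ℝ) else 1) - (if b i then (-1:ℝ) else 1)) * (if ε i then (-1:ℝ) else 1)

/-- the constant of `cube_core`. -/
noncomputable def coreConst (q : ℝ) : ℝ :=
  2 ^ (q + 2) * (2 * q ^ (q / 2) * 2 ^ q) * q ^ (q / 4)

lemma coreConst_pos (q : ℝ) (hq : 2 ≤ q) : 0 < coreConst q := by
  have hq0 : 0 < q := by linarith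
  unfold coreConst
  positivity

/-- from `|u|^q ≤ A * t^(q/2)` to `|u| ≤ A^(1/q) * √t`. -/
lemma abs_le_of_rpow_le (u A t q : ℝ) (hq : 0 < q) (hA : 0 ≤ A) (ht : 0 ≤ t)
    (h : |u| ^ q ≤ A * t ^ (q / 2)) : |u| ≤ A ^ (1 / q) * Real.sqrt t := by
  have h1 : (|u| ^ q) ^ (1 / q) ≤ (A * t ^ (q / 2)) ^ (1 / q) :=
    Real.rpow_le_rpow (by positivity) h (by positivity)
  have h2 : (|u| ^ q) ^ (1 / q) = |u| := by
    rw [← Real.rpow_mul (abs_nonneg u), mul_one_div_cancel hq.ne', Real.rpow_one]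
  have h3 : (A * t ^ (q / 2)) ^ (1 / q) = A ^ (1 / q) * Real.sqrt t := by
    rw [Real.mul_rpow hA (by positivity), ← Real.rpow_mul ht, Real.sqrt_eq_rpow]
    congr 2; field_simp
  rw [h2, h3] at h1
  exact h1

theorem cube_core (K : ℕ) (hK : 1 ≤ K) (q : ℝ) (hq : 2 ≤ q) (d : ℕ)
    (Y : (Fin K → Bool) → Fin d → ℝ) (s D : ℝ) (hs : 0 < s) (hD : 0 ≤ D)
    (hlow : ∀ a b, s ^ q * ∑ ε, |xdiff a b ε| ^ q ≤ ∑ j, |Y a j - Y b j| ^ q)
    (hup : ∀ a b, ∑ j, |Y a j - Y b j| ^ q ≤ D ^ q * s ^ q * ∑ ε, |xdiff a b ε| ^ q) :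
    (K : ℝ) ^ (q / 4) ≤ coreConst q * D ^ q * d := by
  have hq0 : 0 < q := by linarith
  have hKR : (1 : ℝ) ≤ K := by exact_mod_cast hK
  have hK0 : (0 : ℝ) < K := by linarith
  have hsq : 0 < s ^ q := Real.rpow_pos_of_pos hs q
  have hDq : 0 ≤ D ^ q := Real.rpow_nonneg hD q
  set C1 : ℝ := 2 * q ^ (q / 2) * 2 ^ q * 2 ^ K with hC1
  have hC1pos : 0 < C1 := by rw [hC1]; positivity
  -- upper bound for the distances of the cube points
  have hX : ∀ a b : Fin K → Bool,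
      ∑ ε, |xdiff a b ε| ^ q ≤ C1 * (hammingDist a b : ℝ) ^ (q / 2) :=
    fun a b => Exact.x1_upper K q hq a b
  set A : ℝ := D ^ q * s ^ q * C1 with hA
  have hA0 : 0 ≤ A := by rw [hA]; positivity
  set Lam : ℝ := A ^ (1 / q) with hLam
  have hLam0 : 0 ≤ Lam := by rw [hLam]; positivity
  have hLamq : Lam ^ q = A := by
    rw [hLam, ← Real.rpow_mul hA0, one_div_mul_cancel hq0.ne', Real.rpow_one]
  -- every coordinate is Lipschitz for the square root of the Hamming distance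
  have hlip : ∀ j : Fin d, ∀ a b : Fin K → Bool,
      |Y a j - Y b j| ≤ Lam * Real.sqrt (hammingDist a b) := by
    intro j a b
    refine abs_le_of_rpow_le _ A _ q hq0 hA0 (Nat.cast_nonneg _) ?_
    have h1 : |Y a j - Y b j| ^ q ≤ ∑ j, |Y a j - Y b j| ^ q :=
      Finset.single_le_sum (f := fun j => |Y a j - Y b j| ^ q)
        (fun i _ => by positivity) (Finset.mem_univ j)
    have h2 := hup a b
    have h3 : D ^ q * s ^ q * ∑ ε, |xdiff a b ε| ^ q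
        ≤ D ^ q * s ^ q * (C1 * (hammingDist a b : ℝ) ^ (q / 2)) :=
      mul_le_mul_of_nonneg_left (hX a b) (by positivity)
    calc |Y a j - Y b j| ^ q ≤ D ^ q * s ^ q * (C1 * (hammingDist a b : ℝ) ^ (q / 2)) := by
          linarith
      _ = A * (hammingDist a b : ℝ) ^ (q / 2) := by rw [hA]; ring
  -- concentration for every coordinate
  have hconc : ∀ j : Fin d, ∑ a, ∑ b, |Y a j - Y b j| ^ q
      ≤ 4 ^ K * 2 ^ (q + 2) * A * (q * K) ^ (q / 4) := by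
    intro j
    have := Vale.Agent.Lib.P249.H69c.conc_cube K hK q hq Lam hLam0 (fun a => Y a j) (hlip j)
    rw [hLamq] at this
    exact this
  -- sum over the coordinates
  have hupper : ∑ a, ∑ b, ∑ j, |Y a j - Y b j| ^ q
      ≤ d * (4 ^ K * 2 ^ (q + 2) * A * (q * K) ^ (q / 4)) := by
    have h1 : ∑ a, ∑ b, ∑ j, |Y a j - Y b j| ^ q = ∑ j, ∑ a, ∑ b, |Y a j - Y b j| ^ q := by
      calc ∑ a, ∑ b, ∑ j, |Y a j - Y b j| ^ q
          = ∑ a, ∑ j, ∑ b, |Y a j - Y b j| ^ q :=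
            Finset.sum_congr rfl fun a _ => Finset.sum_comm
        _ = ∑ j, ∑ a, ∑ b, |Y a j - Y b j| ^ q := Finset.sum_comm
    rw [h1]
    calc ∑ j, ∑ a, ∑ b, |Y a j - Y b j| ^ q
        ≤ ∑ _j : Fin d, 4 ^ K * 2 ^ (q + 2) * A * (q * K) ^ (q / 4) :=
          Finset.sum_le_sum fun j _ => hconc j
      _ = d * (4 ^ K * 2 ^ (q + 2) * A * (q * K) ^ (q / 4)) := by
          rw [Finset.sum_const, Finset.card_univ, Fintype.card_fin, nsmul_eq_mul]
  -- lower bound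
  have hlower : s ^ q * ((8 : ℝ) ^ K * (2 * K) ^ (q / 2))
      ≤ ∑ a, ∑ b, ∑ j, |Y a j - Y b j| ^ q := by
    have h1 : s ^ q * ∑ a : Fin K → Bool, ∑ b : Fin K → Bool, ∑ ε, |xdiff a b ε| ^ q
        ≤ ∑ a, ∑ b, ∑ j, |Y a j - Y b j| ^ q := by
      rw [Finset.mul_sum]
      refine Finset.sum_le_sum fun a _ => ?_
      rw [Finset.mul_sum]
      exact Finset.sum_le_sum fun b _ => hlow a b
    have h2 := Exact.x2_lower K q hq
    have h3 : s ^ q * ((8 : ℝ) ^ K * (2 * K) ^ (q / 2))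
        ≤ s ^ q * ∑ a : Fin K → Bool, ∑ b : Fin K → Bool, ∑ ε, |xdiff a b ε| ^ q :=
      mul_le_mul_of_nonneg_left h2 hsq.le
    linarith
  -- combine
  have hcomb : s ^ q * ((8 : ℝ) ^ K * (2 * K) ^ (q / 2))
      ≤ d * (4 ^ K * 2 ^ (q + 2) * A * (q * K) ^ (q / 4)) := le_trans hlower hupper
  have h8 : (8 : ℝ) ^ K = 4 ^ K * 2 ^ K := by rw [← mul_pow]; norm_num
  have hKq : (0 : ℝ) < (K : ℝ) ^ (q / 4) := Real.rpow_pos_of_pos hK0 _
  have e1 : (q * (K : ℝ)) ^ (q / 4) = q ^ (q / 4) * (K : ℝ) ^ (q / 4) :=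
    Real.mul_rpow hq0.le hK0.le
  have e2 : (K : ℝ) ^ (q / 4) * (K : ℝ) ^ (q / 4) ≤ (2 * (K : ℝ)) ^ (q / 2) := by
    rw [← Real.rpow_add hK0]
    have : q / 4 + q / 4 = q / 2 := by ring
    rw [this]
    exact Real.rpow_le_rpow hK0.le (by linarith) (by positivity)
  -- rewrite the right side of hcomb as (s^q 8^K) * (coreConst q * D^q * d * K^(q/4))
  have e3 : (d : ℝ) * (4 ^ K * 2 ^ (q + 2) * A * (q * K) ^ (q / 4))
      = s ^ q * (8 : ℝ) ^ K * (coreConst q * D ^ q * d * (K : ℝ) ^ (q / 4)) := by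
    rw [hA, hC1, e1, h8]; unfold coreConst; ring
  rw [e3] at hcomb
  have h8pos : (0 : ℝ) < s ^ q * 8 ^ K := by positivity
  have hcomb2 : (2 * (K : ℝ)) ^ (q / 2) ≤ coreConst q * D ^ q * d * (K : ℝ) ^ (q / 4) := by
    have : s ^ q * (8 : ℝ) ^ K * (2 * (K : ℝ)) ^ (q / 2)
        ≤ s ^ q * (8 : ℝ) ^ K * (coreConst q * D ^ q * d * (K : ℝ) ^ (q / 4)) := by
      calc s ^ q * (8 : ℝ) ^ K * (2 * (K : ℝ)) ^ (q / 2)
          = s ^ q * ((8 : ℝ) ^ K * (2 * K) ^ (q / 2)) := by ring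
        _ ≤ _ := hcomb
    exact le_of_mul_le_mul_left this h8pos
  have hfin : (K : ℝ) ^ (q / 4) * (K : ℝ) ^ (q / 4)
      ≤ coreConst q * D ^ q * d * (K : ℝ) ^ (q / 4) := le_trans e2 hcomb2
  exact le_of_mul_le_mul_right hfin hKq

end Vale.Agent.Lib.P249.H69
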