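import Vale.Agent.Lib.P249.helper69.CubeCore

/-!
# P249, helper53's lower bound (report 1854): the statement in `PiLp` (the LEAN TARGET)

For every `2 ≤ p < ∞` there is `c > 0` such that for every `K ≥ 1` there are `2^K` distinct points
of `ℓ_p^m` (`m = 2^K`) such that every map of them into `ℓ_p^d` of distortion `D` has
`c * K^(p/4) ≤ D^p * d`.
-/

namespace Vale.Agent.Lib.P249.H69

open Finset

/-- `dist f g ^ p = ∑_k |f k - g k|^p` in `PiLp p (fun _ : Fin n => ℝ)`, `0 < p < ∞`. -/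
lemma piLp_dist_rpow {p : ENNReal} (hp : 0 < p.toReal) {n : ℕ}
    (f g : PiLp p (fun _ : Fin n => ℝ)) :
    dist f g ^ p.toReal = ∑ k, |f k - g k| ^ p.toReal := by
  rw [PiLp.dist_eq_sum hp]
  have h0 : 0 ≤ ∑ k, dist (f.ofLp k) (g.ofLp k) ^ p.toReal :=
    Finset.sum_nonneg fun k _ => by positivity
  rw [← Real.rpow_mul h0, one_div_mul_cancel hp.ne', Real.rpow_one]
  rfl

/-- the cube points as vectors indexed by `Fin (2^K)`. -/
noncomputable def cubeEquiv (K : ℕ) : Fin (2 ^ K) ≃ (Fin K → Bool) :=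
  (Fintype.equivFinOfCardEq (by simp)).symm

/-- the cube point `x_a`, `a = cubeEquiv K i`, in `ℓ_p^(2^K)`. -/
noncomputable def cubePt (p : ENNReal) (K : ℕ) (i : Fin (2 ^ K)) :
    PiLp p (fun _ : Fin (2 ^ K) => ℝ) :=
  WithLp.toLp p (fun k => ∑ l, (if cubeEquiv K i l then (-1:ℝ) else 1) *
    (if cubeEquiv K k l then (-1:ℝ) else 1))

lemma cubePt_apply (p : ENNReal) (K : ℕ) (i k : Fin (2 ^ K)) :
    cubePt p K i k = ∑ l, (if cubeEquiv K i l then (-1:ℝ) else 1) *
      (if cubeEquiv K k l then (-1:ℝ) else 1) := rfl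

lemma cubePt_injective (p : ENNReal) (K : ℕ) : Function.Injective (cubePt p K) := by
  intro i j hij
  apply (cubeEquiv K).injective
  apply Exact.rad_injective K
  funext e
  have h := congrArg (fun u : PiLp p (fun _ : Fin (2 ^ K) => ℝ) => u ((cubeEquiv K).symm e)) hij
  simp only [cubePt_apply, Equiv.apply_symm_apply] at h
  exact h

lemma cubePt_dist_rpow {p : ENNReal} (hp : 0 < p.toReal) (K : ℕ) (i j : Fin (2 ^ K)) :
    dist (cubePt p K i) (cubePt p K j) ^ p.toReal
      = ∑ ε, |xdiff (cubeEquiv K i) (cubeEquiv K j) ε| ^ p.toReal := by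
  rw [piLp_dist_rpow hp]
  rw [← Equiv.sum_comp (cubeEquiv K)
    (fun ε => |xdiff (cubeEquiv K i) (cubeEquiv K j) ε| ^ p.toReal)]
  refine Finset.sum_congr rfl fun k _ => ?_
  congr 2
  rw [cubePt_apply, cubePt_apply, ← Finset.sum_sub_distrib]
  unfold xdiff
  refine Finset.sum_congr rfl fun l _ => by ring

/-- helper53's cube lower bound (report 1854), in the form of the LEAN TARGET. -/
theorem cube_lower (p : ENNReal) [Fact (1 ≤ p)] (hp : p ≠ ⊤) (hp2 : 2 ≤ p) :
    ∃ c : ℝ, 0 < c ∧ ∀ K : ℕ, 1 ≤ K →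
      ∃ (m : ℕ) (x : Fin (2 ^ K) → PiLp p (fun _ : Fin m => ℝ)), Function.Injective x ∧
        ∀ (d : ℕ) (y : Fin (2 ^ K) → PiLp p (fun _ : Fin d => ℝ)) (s D : ℝ), 0 < s →
          (∀ i j, s * dist (x i) (x j) ≤ dist (y i) (y j) ∧
            dist (y i) (y j) ≤ D * s * dist (x i) (x j)) →
          c * (K : ℝ) ^ (p.toReal / 4) ≤ D ^ p.toReal * d := by
  have hq : (2 : ℝ) ≤ p.toReal := by
    have := ENNReal.toReal_mono hp hp2
    simpa using this
  have hq0 : 0 < p.toReal := by linarith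
  refine ⟨1 / coreConst p.toReal, one_div_pos.2 (coreConst_pos _ hq), ?_⟩
  intro K hK
  refine ⟨2 ^ K, cubePt p K, cubePt_injective p K, ?_⟩
  intro d y s D hs hyp
  -- `D` is positive
  have hD : 0 < D := by
    have h2 : 2 ≤ 2 ^ K := by
      calc 2 = 2 ^ 1 := by norm_num
        _ ≤ 2 ^ K := Nat.pow_le_pow_right (by norm_num) hK
    set i0 : Fin (2 ^ K) := ⟨0, by omega⟩ with hi0
    set j0 : Fin (2 ^ K) := ⟨1, by omega⟩ with hj0
    have hne : i0 ≠ j0 := by
      intro h
      have := congrArg Fin.val h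
      simp [hi0, hj0] at this
    have hdist : 0 < dist (cubePt p K i0) (cubePt p K j0) :=
      dist_pos.2 ((cubePt_injective p K).ne hne)
    have h1 := (hyp i0 j0).1
    have h2 := (hyp i0 j0).2
    by_contra hcon
    rw [not_lt] at hcon
    have h3 : D * s * dist (cubePt p K i0) (cubePt p K j0) ≤ 0 := by
      have : D * s ≤ 0 := mul_nonpos_of_nonpos_of_nonneg hcon hs.le
      exact mul_nonpos_of_nonpos_of_nonneg this hdist.le
    have h4 : 0 < s * dist (cubePt p K i0) (cubePt p K j0) := mul_pos hs hdist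
    linarith
  -- the coordinates of the image, indexed by the cube
  set Y : (Fin K → Bool) → Fin d → ℝ := fun a j => y ((cubeEquiv K).symm a) j with hY
  have hlow : ∀ a b, s ^ p.toReal * ∑ ε, |xdiff a b ε| ^ p.toReal
      ≤ ∑ j, |Y a j - Y b j| ^ p.toReal := by
    intro a b
    have h1 := (hyp ((cubeEquiv K).symm a) ((cubeEquiv K).symm b)).1
    have h2 : (s * dist (cubePt p K ((cubeEquiv K).symm a)) (cubePt p K ((cubeEquiv K).symm b)))
        ^ p.toReal ≤ dist (y ((cubeEquiv K).symm a)) (y ((cubeEquiv K).symm b)) ^ p.toReal :=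
      Real.rpow_le_rpow (by positivity) h1 hq0.le
    rw [Real.mul_rpow hs.le dist_nonneg, cubePt_dist_rpow hq0, piLp_dist_rpow hq0] at h2
    simpa [Equiv.apply_symm_apply] using h2
  have hup : ∀ a b, ∑ j, |Y a j - Y b j| ^ p.toReal
      ≤ D ^ p.toReal * s ^ p.toReal * ∑ ε, |xdiff a b ε| ^ p.toReal := by
    intro a b
    have h1 := (hyp ((cubeEquiv K).symm a) ((cubeEquiv K).symm b)).2
    have h2 : dist (y ((cubeEquiv K).symm a)) (y ((cubeEquiv K).symm b)) ^ p.toReal
        ≤ (D * s * dist (cubePt p K ((cubeEquiv K).symm a))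
            (cubePt p K ((cubeEquiv K).symm b))) ^ p.toReal :=
      Real.rpow_le_rpow dist_nonneg h1 hq0.le
    rw [Real.mul_rpow (by positivity) dist_nonneg, Real.mul_rpow hD.le hs.le,
      cubePt_dist_rpow hq0, piLp_dist_rpow hq0] at h2
    simpa [Equiv.apply_symm_apply] using h2
  have hcore := cube_core K hK p.toReal hq d Y s D hs hD.le hlow hup
  have hc := coreConst_pos p.toReal hq
  rw [one_div, inv_mul_le_iff₀ hc]
  calc (K : ℝ) ^ (p.toReal / 4) ≤ coreConst p.toReal * D ^ p.toReal * d := hcore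
    _ = coreConst p.toReal * (D ^ p.toReal * d) := by ring

end Vale.Agent.Lib.P249.H69
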