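import Vale.Agent.Lib.P249.helper69.X2

/-!
# P249, helper53's lower bound (report 1854): jobs 218 (J3) and 219 (J4) in the exact job form

The statements below are literally the ones of the pool jobs (no auxiliary definitions).
-/

namespace Vale.Agent.Lib.P249.H69.Exact

open Finset

/-- job 218 (J3), exact form. -/
theorem x1_upper (K : ℕ) (q : ℝ) (hq : 2 ≤ q) (a b : Fin K → Bool) :
    ∑ e : Fin K → Bool,
      |∑ i, ((if a i then (-1:ℝ) else 1) - (if b i then (-1:ℝ) else 1)) *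
        (if e i then (-1:ℝ) else 1)| ^ q
      ≤ 2 * q ^ (q / 2) * 2 ^ q * 2 ^ K * (hammingDist a b : ℝ) ^ (q / 2) := by
  have hq0 : 0 < q := by linarith
  have h := Vale.Agent.Lib.P249.H69.x1_upper K a b q hq0
  have hcard : ((univ.filter fun i => a i ≠ b i).card : ℝ) = (hammingDist a b : ℝ) := rfl
  rw [hcard] at h
  refine le_trans h ?_
  have he : (1 : ℝ) ≤ Real.exp 1 := by
    have := Real.add_one_le_exp (1 : ℝ); linarith
  have h1 : (q / Real.exp 1) ^ (q / 2) ≤ q ^ (q / 2) :=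
    Real.rpow_le_rpow (by positivity) (div_le_self hq0.le he) (by positivity)
  have h2 : (0 : ℝ) ≤ (hammingDist a b : ℝ) ^ (q / 2) := by positivity
  have h3 : (0 : ℝ) ≤ (2 : ℝ) ^ q := by positivity
  have h4 : (0 : ℝ) ≤ (2 : ℝ) ^ K := by positivity
  have h5 : 2 * (q / Real.exp 1) ^ (q / 2) ≤ 2 * q ^ (q / 2) := by linarith
  exact mul_le_mul_of_nonneg_right
    (mul_le_mul_of_nonneg_right (mul_le_mul_of_nonneg_right h5 h3) h4) h2

/-- job 219 (J4), exact form. -/
theorem x2_lower (K : ℕ) (q : ℝ) (hq : 2 ≤ q) :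
    (8:ℝ) ^ K * (2 * K) ^ (q / 2) ≤
      ∑ a : Fin K → Bool, ∑ b : Fin K → Bool, ∑ e : Fin K → Bool,
        |∑ i, ((if a i then (-1:ℝ) else 1) - (if b i then (-1:ℝ) else 1)) *
          (if e i then (-1:ℝ) else 1)| ^ q :=
  Vale.Agent.Lib.P249.H69.x2_lower K q hq

/-- job 219 (J4), exact form. -/
theorem rad_injective (K : ℕ) :
    Function.Injective (fun (a : Fin K → Bool) (e : Fin K → Bool) =>
      ∑ i, (if a i then (-1:ℝ) else 1) * (if e i then (-1:ℝ) else 1)) :=
  Vale.Agent.Lib.P249.H69.xpt_injective K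

end Vale.Agent.Lib.P249.H69.Exact
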