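import Vale.Agent.Lib.P249.helper62.GridBasic
import Vale.Agent.Lib.P249.helper55.GridSpread

/-!
# P249 grid lower bound (helper62, report 1926): backup copy of the finite core `grid_core`

`grid_core_of`: the statement `grid_core` of the skeleton (report 2004), with the statement of
`grid_conc` for `M = 3 k` as a hypothesis. Uses `khin_upper`, `khin_lower`, `gZ_defect`
(helper62) and `grid_spread` (helper55).
-/

namespace Vale.Agent.Lib.P249.H69g

open Finset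
open Vale.Agent.Lib.P249.H62

/-- from `|u|^q ≤ A * t^(q/2)` to `|u| ≤ A^(1/q) * √t`. -/
lemma abs_le_of_rpow_le' (u A t q : ℝ) (hq : 0 < q) (hA : 0 ≤ A) (ht : 0 ≤ t)
    (h : |u| ^ q ≤ A * t ^ (q / 2)) : |u| ≤ A ^ (1 / q) * Real.sqrt t := by
  have h1 : (|u| ^ q) ^ (1 / q) ≤ (A * t ^ (q / 2)) ^ (1 / q) :=
    Real.rpow_le_rpow (by positivity) h (by positivity)
  have h2 : (|u| ^ q) ^ (1 / q) = |u| := by
    rw [← Real.rpow_mul (abs_nonneg u), mul_one_div_cancel hq.ne', Real.rpow_one]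
  have h3 : (A * t ^ (q / 2)) ^ (1 / q) = A ^ (1 / q) * Real.sqrt t := by
    rw [Real.mul_rpow hA (by positivity), ← Real.rpow_mul ht, Real.sqrt_eq_rpow]
    congr 2; field_simp
  rw [h2, h3] at h1
  exact h1

lemma gdist2_nonneg (M k : ℕ) (x y : Fin k → Fin (2 * M + 1)) : 0 ≤ gdist2 M k x y := by
  unfold gdist2
  exact Finset.sum_nonneg fun j _ => sq_nonneg _

lemma gPhi_pos (M k : ℕ) (x : Fin k → Fin (2 * M + 1)) : 0 < gPhi M k x := by
  unfold gPhi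
  exact Finset.prod_pos fun j _ => gphi_pos M (x j)

/-- the `q`-th power of the distance of two grid points of `ℓ_q`, two-sided Khinchine bound. -/
lemma gX_upper (M k : ℕ) (q : ℝ) (hq : 0 < q) (x y : Fin k → Fin (2 * M + 1)) :
    ∑ e, |gX M k x e - gX M k y e| ^ q
      ≤ 2 * 2 ^ k * (q / Real.exp 1) ^ (q / 2) * (gdist2 M k x y) ^ (q / 2) := by
  have h := khin_upper k q hq (fun j => gv M (x j) - gv M (y j))
  simp_rw [← gX_sub] at h
  have e1 : (q * (∑ j, (gv M (x j) - gv M (y j)) ^ 2) / Real.exp 1) ^ (q / 2)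
      = (q / Real.exp 1) ^ (q / 2) * (gdist2 M k x y) ^ (q / 2) := by
    rw [← Real.mul_rpow (by positivity) (gdist2_nonneg M k x y)]
    congr 1
    unfold gdist2
    ring
  rw [e1] at h
  linarith

lemma gX_lower (M k : ℕ) (q : ℝ) (hq : 2 ≤ q) (x y : Fin k → Fin (2 * M + 1)) :
    (2 : ℝ) ^ k * (gdist2 M k x y) ^ (q / 2) ≤ ∑ e, |gX M k x e - gX M k y e| ^ q := by
  have h := khin_lower k q hq (fun j => gv M (x j) - gv M (y j))
  simp_rw [← gX_sub] at h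
  exact h

/-- the finite core for a general grid size `M`, with the statement of `grid_conc` and the
defect bound as hypotheses. -/
theorem grid_core_gen (M k : ℕ) (hM : 1 ≤ M) (hk : 1 ≤ k) (q : ℝ) (hq : 2 ≤ q)
    (hdef : (gZ M + 1) ^ (2 * k) ≤ Real.exp 1 * gZ M ^ (2 * k))
    (hconc : ∀ (Lam : ℝ), 0 ≤ Lam → ∀ (h : (Fin k → Fin (2 * M + 1)) → ℝ),
      (∀ x y, |h x - h y| ≤ Lam * Real.sqrt (gdist2 M k x y)) →
      ∑ x, ∑ y, gPhi M k x * gPhi M k y * |h x - h y| ^ q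
        ≤ 2 * (gZ M + 1) ^ (2 * k) * (q * (M : ℝ) ^ 2 / Real.exp 1) ^ (q / 2) * Lam ^ q)
    (d : ℕ) (s D : ℝ) (hs : 0 < s)
    (y : (Fin k → Fin (2 * M + 1)) → Fin d → ℝ)
    (hlow : ∀ c c', s ^ q * ∑ e, |gX M k c e - gX M k c' e| ^ q
      ≤ ∑ i, |y c i - y c' i| ^ q)
    (hup : ∀ c c', ∑ i, |y c i - y c' i| ^ q
      ≤ D ^ q * s ^ q * ∑ e, |gX M k c e - gX M k c' e| ^ q) :
    (1 / 11 : ℝ) * (2 * k / (3 * q ^ 2)) ^ (q / 2) ≤ D ^ q * d := by
  have hq0 : 0 < q := by linarith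
  have hkR : (1 : ℝ) ≤ k := by exact_mod_cast hk
  have hk0 : (0 : ℝ) < k := by linarith
  have hMR : (0 : ℝ) < (M : ℝ) := by exact_mod_cast hM
  have hsq : 0 < s ^ q := Real.rpow_pos_of_pos hs q
  have he : 0 < Real.exp 1 := Real.exp_pos 1
  have hZ : 0 < gZ M := gZ_pos M
  -- `D ^ q` is nonnegative: use two distinct grid points
  have hDq : 0 ≤ D ^ q := by
    by_contra hcon
    rw [not_le] at hcon
    set c0 : Fin k → Fin (2 * M + 1) := fun _ => ⟨0, by omega⟩ with hc0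
    set c1 : Fin k → Fin (2 * M + 1) := fun _ => ⟨1, by omega⟩ with hc1
    have hd : gdist2 M k c0 c1 = k := by
      unfold gdist2 gv
      simp [hc0, hc1]
      ring
    have hX : 0 < ∑ e, |gX M k c0 e - gX M k c1 e| ^ q := by
      have h1 := gX_lower M k q hq c0 c1
      rw [hd] at h1
      have : (0 : ℝ) < 2 ^ k * (k : ℝ) ^ (q / 2) := by positivity
      linarith
    have h1 := hlow c0 c1
    have h2 := hup c0 c1
    have h3 : D ^ q * s ^ q * ∑ e, |gX M k c0 e - gX M k c1 e| ^ q < 0 := by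
      have : D ^ q * s ^ q < 0 := mul_neg_of_neg_of_pos hcon hsq
      exact mul_neg_of_neg_of_pos this hX
    have h4 : 0 < s ^ q * ∑ e, |gX M k c0 e - gX M k c1 e| ^ q := mul_pos hsq hX
    linarith
  -- the Lipschitz constant of the coordinates
  set A : ℝ := D ^ q * s ^ q * (2 * 2 ^ k * (q / Real.exp 1) ^ (q / 2)) with hA
  have hA0 : 0 ≤ A := by rw [hA]; positivity
  set Lam : ℝ := A ^ (1 / q) with hLam
  have hLam0 : 0 ≤ Lam := by rw [hLam]; positivity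
  have hLamq : Lam ^ q = A := by
    rw [hLam, ← Real.rpow_mul hA0, one_div_mul_cancel hq0.ne', Real.rpow_one]
  have hlip : ∀ i : Fin d, ∀ c c' : Fin k → Fin (2 * M + 1),
      |y c i - y c' i| ≤ Lam * Real.sqrt (gdist2 M k c c') := by
    intro i c c'
    refine abs_le_of_rpow_le' _ A _ q hq0 hA0 (gdist2_nonneg M k c c') ?_
    have h1 : |y c i - y c' i| ^ q ≤ ∑ i, |y c i - y c' i| ^ q :=
      Finset.single_le_sum (f := fun i => |y c i - y c' i| ^ q)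
        (fun i _ => by positivity) (Finset.mem_univ i)
    have h2 := hup c c'
    have h3 : D ^ q * s ^ q * ∑ e, |gX M k c e - gX M k c' e| ^ q
        ≤ D ^ q * s ^ q * (2 * 2 ^ k * (q / Real.exp 1) ^ (q / 2) * (gdist2 M k c c') ^ (q / 2)) :=
      mul_le_mul_of_nonneg_left (gX_upper M k q hq0 c c') (by positivity)
    calc |y c i - y c' i| ^ q
        ≤ D ^ q * s ^ q * (2 * 2 ^ k * (q / Real.exp 1) ^ (q / 2) * (gdist2 M k c c') ^ (q / 2)) := by
          linarith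
      _ = A * (gdist2 M k c c') ^ (q / 2) := by rw [hA]; ring
  -- concentration for every coordinate, summed
  set CC : ℝ := 2 * (gZ M + 1) ^ (2 * k) * (q * (M : ℝ) ^ 2 / Real.exp 1) ^ (q / 2) * A with hCC
  have hconc' : ∀ i : Fin d, ∑ x, ∑ y', gPhi M k x * gPhi M k y' * |y x i - y y' i| ^ q ≤ CC := by
    intro i
    have := hconc Lam hLam0 (fun c => y c i) (hlip i)
    rw [hLamq] at this
    exact this
  have hupper : ∑ x, ∑ y', gPhi M k x * gPhi M k y' * ∑ i, |y x i - y y' i| ^ q ≤ d * CC := by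
    have h1 : ∑ x, ∑ y', gPhi M k x * gPhi M k y' * ∑ i, |y x i - y y' i| ^ q
        = ∑ i, ∑ x, ∑ y', gPhi M k x * gPhi M k y' * |y x i - y y' i| ^ q := by
      simp_rw [Finset.mul_sum]
      calc ∑ x, ∑ y', ∑ i, gPhi M k x * gPhi M k y' * |y x i - y y' i| ^ q
          = ∑ x, ∑ i, ∑ y', gPhi M k x * gPhi M k y' * |y x i - y y' i| ^ q :=
            Finset.sum_congr rfl fun x _ => Finset.sum_comm
        _ = ∑ i, ∑ x, ∑ y', gPhi M k x * gPhi M k y' * |y x i - y y' i| ^ q := Finset.sum_comm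
    rw [h1]
    calc ∑ i, ∑ x, ∑ y', gPhi M k x * gPhi M k y' * |y x i - y y' i| ^ q
        ≤ ∑ _i : Fin d, CC := Finset.sum_le_sum fun i _ => hconc' i
      _ = d * CC := by rw [Finset.sum_const, Finset.card_univ, Fintype.card_fin, nsmul_eq_mul]
  -- lower bound
  have hlower : s ^ q * 2 ^ k * (gZ M ^ (2 * k) * (2 * k * (M : ℝ) ^ 2 / (3 * Real.exp 2)) ^ (q / 2))
      ≤ ∑ x, ∑ y', gPhi M k x * gPhi M k y' * ∑ i, |y x i - y y' i| ^ q := by
    have hsp := Vale.Agent.Lib.P249.H55.grid_spread M hM k hk q hq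
    have h1 : ∀ x y' : Fin k → Fin (2 * M + 1),
        gPhi M k x * gPhi M k y' * (s ^ q * 2 ^ k * (gdist2 M k x y') ^ (q / 2))
          ≤ gPhi M k x * gPhi M k y' * ∑ i, |y x i - y y' i| ^ q := by
      intro x y'
      refine mul_le_mul_of_nonneg_left ?_ (mul_pos (gPhi_pos M k x) (gPhi_pos M k y')).le
      have h2 := hlow x y'
      have h3 := gX_lower M k q hq x y'
      have h4 : s ^ q * (2 ^ k * (gdist2 M k x y') ^ (q / 2))
          ≤ s ^ q * ∑ e, |gX M k x e - gX M k y' e| ^ q := mul_le_mul_of_nonneg_left h3 hsq.le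
      linarith
    calc s ^ q * 2 ^ k * (gZ M ^ (2 * k) * (2 * k * (M : ℝ) ^ 2 / (3 * Real.exp 2)) ^ (q / 2))
        ≤ s ^ q * 2 ^ k * ∑ x, ∑ y', gPhi M k x * gPhi M k y' * (gdist2 M k x y') ^ (q / 2) :=
          mul_le_mul_of_nonneg_left hsp (by positivity)
      _ = ∑ x, ∑ y', gPhi M k x * gPhi M k y' * (s ^ q * 2 ^ k * (gdist2 M k x y') ^ (q / 2)) := by
          rw [Finset.mul_sum]
          refine Finset.sum_congr rfl fun x _ => ?_
          rw [Finset.mul_sum]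
          refine Finset.sum_congr rfl fun y' _ => by ring
      _ ≤ ∑ x, ∑ y', gPhi M k x * gPhi M k y' * ∑ i, |y x i - y y' i| ^ q :=
          Finset.sum_le_sum fun x _ => Finset.sum_le_sum fun y' _ => h1 x y'
  have hcomb := le_trans hlower hupper
  -- constants
  have hZ2k : 0 < gZ M ^ (2 * k) := pow_pos hZ _
  have hE2 : Real.exp 2 = Real.exp 1 * Real.exp 1 := by
    rw [← Real.exp_add]; norm_num
  set R : ℝ := (q ^ 2 * (M : ℝ) ^ 2 / (Real.exp 1 * Real.exp 1)) ^ (q / 2) with hR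
  have hRpos : 0 < R := by rw [hR]; positivity
  have e1 : (2 * k * (M : ℝ) ^ 2 / (3 * Real.exp 2)) ^ (q / 2)
      = (2 * k / (3 * q ^ 2)) ^ (q / 2) * R := by
    rw [hR, ← Real.mul_rpow (by positivity) (by positivity), hE2]
    congr 1; field_simp
  have e2 : (q * (M : ℝ) ^ 2 / Real.exp 1) ^ (q / 2) * (q / Real.exp 1) ^ (q / 2) = R := by
    rw [hR, ← Real.mul_rpow (by positivity) (by positivity)]
    congr 1; field_simp
  -- d * CC ≤ s^q 2^k Z^(2k) R * (4 e * D^q * d)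
  have hCCle : (d : ℝ) * CC ≤ s ^ q * 2 ^ k * (gZ M ^ (2 * k) * R) * (4 * Real.exp 1 * (D ^ q * d)) := by
    have h1 : CC ≤ 2 * (Real.exp 1 * gZ M ^ (2 * k)) * (q * (M : ℝ) ^ 2 / Real.exp 1) ^ (q / 2) * A := by
      rw [hCC]
      have hnn : 0 ≤ (q * (M : ℝ) ^ 2 / Real.exp 1) ^ (q / 2) := by positivity
      exact mul_le_mul_of_nonneg_right
        (mul_le_mul_of_nonneg_right (mul_le_mul_of_nonneg_left hdef (by norm_num)) hnn) hA0
    have h2 : 2 * (Real.exp 1 * gZ M ^ (2 * k)) * (q * (M : ℝ) ^ 2 / Real.exp 1) ^ (q / 2) * A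
        = s ^ q * 2 ^ k * (gZ M ^ (2 * k) * R) * (4 * Real.exp 1 * D ^ q) := by
      rw [hA, ← e2]; ring
    have hd0 : (0 : ℝ) ≤ d := Nat.cast_nonneg d
    calc (d : ℝ) * CC ≤ d * (s ^ q * 2 ^ k * (gZ M ^ (2 * k) * R) * (4 * Real.exp 1 * D ^ q)) := by
          rw [← h2]; exact mul_le_mul_of_nonneg_left h1 hd0
      _ = s ^ q * 2 ^ k * (gZ M ^ (2 * k) * R) * (4 * Real.exp 1 * (D ^ q * d)) := by ring
  rw [e1] at hcomb
  have hpos : 0 < s ^ q * 2 ^ k * (gZ M ^ (2 * k) * R) := by positivity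
  have hfin : (2 * k / (3 * q ^ 2)) ^ (q / 2) ≤ 4 * Real.exp 1 * (D ^ q * d) := by
    have h1 : s ^ q * 2 ^ k * (gZ M ^ (2 * k) * R) * (2 * k / (3 * q ^ 2)) ^ (q / 2)
        ≤ s ^ q * 2 ^ k * (gZ M ^ (2 * k) * R) * (4 * Real.exp 1 * (D ^ q * d)) := by
      calc s ^ q * 2 ^ k * (gZ M ^ (2 * k) * R) * (2 * k / (3 * q ^ 2)) ^ (q / 2)
          = s ^ q * 2 ^ k * (gZ M ^ (2 * k) * ((2 * k / (3 * q ^ 2)) ^ (q / 2) * R)) := by ring
        _ ≤ (d : ℝ) * CC := hcomb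
        _ ≤ _ := hCCle
    exact le_of_mul_le_mul_left h1 hpos
  have he3 : Real.exp 1 < 2.7182818286 := Real.exp_one_lt_d9
  have hDd : 0 ≤ D ^ q * d := mul_nonneg hDq (Nat.cast_nonneg d)
  have hlhs : 0 ≤ (2 * (k : ℝ) / (3 * q ^ 2)) ^ (q / 2) := by positivity
  nlinarith

/-- `grid_core` of the skeleton (report 2004), with the statement of `grid_conc` for `M = 3 k`
as a hypothesis. -/
theorem grid_core_of (k : ℕ) (hk : 1 ≤ k) (q : ℝ) (hq : 2 ≤ q)
    (hconc : ∀ (Lam : ℝ), 0 ≤ Lam → ∀ (h : (Fin k → Fin (2 * (3 * k) + 1)) → ℝ),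
      (∀ x y, |h x - h y| ≤ Lam * Real.sqrt (gdist2 (3 * k) k x y)) →
      ∑ x, ∑ y, gPhi (3 * k) k x * gPhi (3 * k) k y * |h x - h y| ^ q
        ≤ 2 * (gZ (3 * k) + 1) ^ (2 * k) * (q * ((3 * k : ℕ) : ℝ) ^ 2 / Real.exp 1) ^ (q / 2)
          * Lam ^ q)
    (d : ℕ) (s D : ℝ) (hs : 0 < s)
    (y : (Fin k → Fin (2 * (3 * k) + 1)) → Fin d → ℝ)
    (hlow : ∀ c c', s ^ q * ∑ e, |gX (3 * k) k c e - gX (3 * k) k c' e| ^ q
      ≤ ∑ i, |y c i - y c' i| ^ q)
    (hup : ∀ c c', ∑ i, |y c i - y c' i| ^ q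
      ≤ D ^ q * s ^ q * ∑ e, |gX (3 * k) k c e - gX (3 * k) k c' e| ^ q) :
    (1 / 11 : ℝ) * (2 * k / (3 * q ^ 2)) ^ (q / 2) ≤ D ^ q * d :=
  grid_core_gen (3 * k) k (by omega) hk q hq (gZ_defect k hk) hconc d s D hs y hlow hup

end Vale.Agent.Lib.P249.H69g
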