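import Vale.Agent.Lib.P249.helper52.GridConcFinal
import Vale.Agent.Lib.P249.helper69.GridCore
import Vale.Agent.Lib.P249.helper98.GridFinal

/-!
# P249 grid lower bound (helper62, report 1926): end-to-end assembly (backup copy)

`grid_core`: the finite core of the skeleton (report 2004), from `grid_conc` (helper52) and
`grid_core_of`. `grid_final`: the statement of pool job GRID-L (the hand-in statement), from
`grid_final_of` (helper98), `grid_core` and `gX_injective` (helper62).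
-/

namespace Vale.Agent.Lib.P249.H69g

open Finset
open Vale.Agent.Lib.P249.H62

/-- the finite core of the grid lower bound, exact statement of the skeleton. -/
theorem grid_core (k : ℕ) (hk : 1 ≤ k) (q : ℝ) (hq : 2 ≤ q) (d : ℕ) (s D : ℝ) (hs : 0 < s)
    (y : (Fin k → Fin (2 * (3 * k) + 1)) → Fin d → ℝ)
    (hlow : ∀ c c', s ^ q * ∑ e, |gX (3 * k) k c e - gX (3 * k) k c' e| ^ q
      ≤ ∑ i, |y c i - y c' i| ^ q)
    (hup : ∀ c c', ∑ i, |y c i - y c' i| ^ q
      ≤ D ^ q * s ^ q * ∑ e, |gX (3 * k) k c e - gX (3 * k) k c' e| ^ q) :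
    (1 / 11 : ℝ) * (2 * k / (3 * q ^ 2)) ^ (q / 2) ≤ D ^ q * d :=
  grid_core_of k hk q hq
    (fun Lam hLam h hlip =>
      Vale.Agent.Lib.P249.H52.grid_conc (3 * k) (by omega) k q (by linarith) Lam hLam h hlip)
    d s D hs y hlow hup

/-- the grid lower bound in `PiLp`: exact statement of pool job GRID-L. -/
theorem grid_final (p : ENNReal) [Fact (1 ≤ p)] (hp : p ≠ ⊤) (hp2 : 2 ≤ p) (k : ℕ) (hk : 1 ≤ k) :
    ∃ (m : ℕ) (x : Fin ((6 * k + 1) ^ k) → PiLp p (fun _ : Fin m => ℝ)), Function.Injective x ∧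
      ∀ (d : ℕ) (y : Fin ((6 * k + 1) ^ k) → PiLp p (fun _ : Fin d => ℝ)) (s D : ℝ), 0 < s →
        (∀ i j, s * dist (x i) (x j) ≤ dist (y i) (y j) ∧
          dist (y i) (y j) ≤ D * s * dist (x i) (x j)) →
        (1 / 11 : ℝ) * (2 * k / (3 * p.toReal ^ 2)) ^ (p.toReal / 2) ≤ D ^ p.toReal * d :=
  Vale.Agent.Lib.P249.H98.grid_final_of
    (fun k hk q hq d s D hs y hlow hup => grid_core k hk q hq d s D hs y hlow hup)
    (fun M k => gX_injective M k) p hp hp2 k hk

end Vale.Agent.Lib.P249.H69g
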